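import Vale.Agent.P218.H67.Main

open MeasureTheory Set Filter Topology Vale.Agent.P218.H67

namespace Vale.Agent.Results.P218.Criteria

/-- Uniqueness criteria for tangent flows of Brakke flows of finite mass, in fixed coordinates. -/
theorem result (E : Type) [NormedAddCommGroup E] [InnerProductSpace ℝ E] [FiniteDimensional ℝ E]
    [MeasurableSpace E] [BorelSpace E] (m : ℕ) (t₀ : ℝ) (μ : ℝ → Measure E)
    (P : ℝ → E → (E →L[ℝ] E)) (H : ℝ → E → E) (x₀ : E) (ht₀ : 0 < t₀)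
    (hμ : IsBrakkeFlow m t₀ μ P H) (hmass : μ 0 univ < ⊤) :
    -- tangent flows exist
    (∃ ν₀, IsTangentFlow m μ x₀ t₀ ν₀) ∧
    -- countably many tangent flows near one of them
    (∀ ν₀, IsTangentFlow m μ x₀ t₀ ν₀ → ∀ (S : Finset (E → ℝ)) (δ : ℝ), IsNbhd S δ →
      (tangentsNear m μ x₀ t₀ ν₀ S δ).Countable → UniqueTangentFlow m μ x₀ t₀) ∧
    -- countably many shapes near one tangent flow, and a symmetry without rotations
    (∀ Γ : Set (E ≃ₗᵢ[ℝ] E), NoRotation Γ → (∀ g ∈ Γ, InvariantUnder μ x₀ t₀ g) →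
      ∀ ν₀, IsTangentFlow m μ x₀ t₀ ν₀ → ∀ (S : Finset (E → ℝ)) (δ : ℝ), IsNbhd S δ →
      CountablyManyShapes (tangentsNear m μ x₀ t₀ ν₀ S δ) → UniqueTangentFlow m μ x₀ t₀) ∧
    -- in dimension three two mirror planes through `x₀` are enough
    (Module.finrank ℝ E = 3 → ∀ u v : E, LinearIndependent ℝ ![u, v] →
      InvariantUnder μ x₀ t₀ (ℝ ∙ u)ᗮ.reflection → InvariantUnder μ x₀ t₀ (ℝ ∙ v)ᗮ.reflection →
      ∀ ν₀, IsTangentFlow m μ x₀ t₀ ν₀ → ∀ (S : Finset (E → ℝ)) (δ : ℝ), IsNbhd S δ →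
      CountablyManyShapes (tangentsNear m μ x₀ t₀ ν₀ S δ) → UniqueTangentFlow m μ x₀ t₀) ∧
    -- a Lojasiewicz inequality near one tangent flow
    (∀ ν₀, IsTangentFlow m μ x₀ t₀ ν₀ → LojasiewiczNear m μ P H x₀ t₀ ν₀ →
      UniqueTangentFlow m μ x₀ t₀) ∧
    -- a logarithmic rate for the density ratio
    (∀ Θ C ε : ℝ, 0 < ε → Tendsto (gauss m μ x₀ t₀) (𝓝[<] t₀) (𝓝 Θ) →
      (∀ᶠ t in 𝓝[<] t₀, gauss m μ x₀ t₀ t - Θ ≤ C * (Real.log (1 / (t₀ - t))) ^ (-(1 + ε))) →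
      UniqueTangentFlow m μ x₀ t₀) := by
  refine ⟨exists_tangentFlow hμ (hfin_of hμ hmass) x₀ ht₀,
    fun ν₀ hν₀ S δ hS h => main1 hμ hmass ht₀ x₀ hν₀ hS h,
    fun Γ hΓ hinv ν₀ hν₀ S δ hS h => main4 hμ hmass ht₀ x₀ hΓ hinv hν₀ hS h, ?_,
    fun ν₀ hν₀ h => main2 hμ hmass ht₀ x₀ hν₀ h,
    fun Θ C ε hε hΘ h => main3 hμ hmass ht₀ x₀ hε hΘ h⟩
  intro hE u v huv hu hv ν₀ hν₀ S δ hS h
  refine main4 hμ hmass ht₀ x₀ (noRotation_mirrors hE huv) ?_ hν₀ hS h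
  rintro g (rfl | rfl)
  · exact hu
  · exact hv

end Vale.Agent.Results.P218.Criteria
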